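import Vale.Agent.P246.Top.Defs
import Vale.Agent.P246.Bdl.B2
import Mathlib.Data.Fin.Parity

/-!
# Singular chains: basic facts
-/

set_option linter.all false

namespace Vale.Agent.P246.Top

open Topology Set CategoryTheory

theorem face_swap (n : ℕ) (i : Fin (n + 3)) (j : Fin (n + 2)) :
    (face (n + 1) (i.succAbove j)).comp (face n (j.predAbove i)) =
      (face (n + 1) i).comp (face n j) := by
  apply ContinuousMap.ext
  intro x
  change stdSimplex.map (S := ℝ) _ (stdSimplex.map (S := ℝ) _ x) =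
    stdSimplex.map (S := ℝ) _ (stdSimplex.map (S := ℝ) _ x)
  rw [stdSimplex.map_comp_apply, stdSimplex.map_comp_apply]
  congr 1
  funext a
  exact Fin.succAbove_succAbove_succAbove_predAbove i j a

theorem alt_alt {A : Type*} [AddCommGroup A] (n : ℕ) (a : Fin (n + 2) → Fin (n + 1) → A)
    (h : ∀ i j, a (i.succAbove j) (j.predAbove i) = a i j) :
    ∑ i : Fin (n + 2), (-1 : ℤ) ^ (i : ℕ) • ∑ j : Fin (n + 1), (-1 : ℤ) ^ (j : ℕ) • a i j = 0 := by
  have h1 : ∑ i : Fin (n + 2), (-1 : ℤ) ^ (i : ℕ) • ∑ j : Fin (n + 1),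
      (-1 : ℤ) ^ (j : ℕ) • a i j =
      ∑ p : Fin (n + 2) × Fin (n + 1), (-1 : ℤ) ^ ((p.1 : ℕ) + p.2) • a p.1 p.2 := by
    rw [Fintype.sum_prod_type]
    refine Finset.sum_congr rfl fun i _ => ?_
    rw [Finset.smul_sum]
    refine Finset.sum_congr rfl fun j _ => ?_
    rw [pow_add, mul_smul]
  rw [h1]
  refine Finset.sum_involution (fun p _ => (p.1.succAbove p.2, p.2.predAbove p.1)) ?_ ?_ ?_ ?_
  · rintro ⟨i, j⟩ _
    change (-1 : ℤ) ^ ((i : ℕ) + j) • a i j +
      (-1 : ℤ) ^ ((i.succAbove j : ℕ) + (j.predAbove i : ℕ)) • a (i.succAbove j) (j.predAbove i) = 0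
    rw [Fin.neg_one_pow_succAbove_add_predAbove, h, neg_smul, add_neg_cancel]
  · rintro ⟨i, j⟩ _ _ he
    exact Fin.succAbove_ne i j (congrArg Prod.fst he)
  · intro p _; exact Finset.mem_univ _
  · rintro ⟨i, j⟩ _
    exact Prod.ext (Fin.succAbove_succAbove_predAbove i j) (Fin.predAbove_predAbove_succAbove i j)

section

variable {X Y Z : Type} [TopologicalSpace X] [TopologicalSpace Y] [TopologicalSpace Z]

theorem bd_single (n : ℕ) (σ : Sx (n + 1) X) (m : ℤ) : bd n (Finsupp.single σ m) =
    ∑ i : Fin (n + 2), (-1 : ℤ) ^ (i : ℕ) • Finsupp.single (σ.comp (face n i)) m := by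
  rw [bd, Finsupp.linearCombination_single, Finset.smul_sum]
  apply Finset.sum_congr rfl
  intro i _
  rw [Finsupp.smul_single, Finsupp.smul_single, smul_eq_mul, smul_eq_mul, mul_comm]

/-- the map induced on chains -/
noncomputable def push (n : ℕ) (f : C(X, Y)) : Ch n X →ₗ[ℤ] Ch n Y :=
  Finsupp.lmapDomain ℤ ℤ fun σ : Sx n X => f.comp σ

theorem push_single (n : ℕ) (f : C(X, Y)) (σ : Sx n X) (m : ℤ) :
    push n f (Finsupp.single σ m) = Finsupp.single (f.comp σ) m := by
  rw [push, Finsupp.lmapDomain_apply, Finsupp.mapDomain_single]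

theorem push_id (n : ℕ) (c : Ch n X) : push n (ContinuousMap.id X) c = c := by
  rw [push, Finsupp.lmapDomain_apply]
  exact Finsupp.mapDomain_id

theorem push_comp (n : ℕ) (g : C(Y, Z)) (f : C(X, Y)) (c : Ch n X) :
    push n (g.comp f) c = push n g (push n f c) := by
  rw [push, push, push, Finsupp.lmapDomain_apply, Finsupp.lmapDomain_apply,
    Finsupp.lmapDomain_apply, ← Finsupp.mapDomain_comp]
  rfl

theorem bd_push (n : ℕ) (f : C(X, Y)) (c : Ch (n + 1) X) :
    bd n (push (n + 1) f c) = push n f (bd n c) := by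
  induction c using Finsupp.induction_linear with
  | zero => simp only [map_zero]
  | add x y hx hy => simp only [map_add, hx, hy]
  | single σ m =>
    rw [push_single, bd_single, bd_single, map_sum]
    apply Finset.sum_congr rfl
    intro i _
    rw [map_smul, push_single]
    rfl

theorem bd_bd (n : ℕ) (c : Ch (n + 2) X) : bd n (bd (n + 1) c) = 0 := by
  induction c using Finsupp.induction_linear with
  | zero => simp only [map_zero]
  | add x y hx hy => simp only [map_add, hx, hy, add_zero]
  | single σ m =>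
    rw [bd_single, map_sum]
    simp only [map_smul, bd_single]
    apply alt_alt (n + 1) fun i j =>
      Finsupp.single ((σ.comp (face (n + 1) i)).comp (face n j)) m
    intro i j
    rw [ContinuousMap.comp_assoc, ContinuousMap.comp_assoc, face_swap]

/-- the boundary map in all degrees, zero on `0`-chains -/
noncomputable def dd : ∀ n : ℕ, Ch n X →ₗ[ℤ] Ch (n - 1) X
  | 0 => 0
  | n + 1 => bd n

theorem dd_zero : (dd 0 : Ch 0 X →ₗ[ℤ] Ch 0 X) = 0 := rfl
theorem dd_succ (n : ℕ) : (dd (n + 1) : Ch (n + 1) X →ₗ[ℤ] Ch n X) = bd n := rfl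

theorem dd_bd (n : ℕ) (c : Ch (n + 1) X) : dd n (bd n c) = 0 := by
  cases n with
  | zero => rfl
  | succ n => exact bd_bd n c

theorem dd_push (n : ℕ) (f : C(X, Y)) (c : Ch n X) :
    dd n (push n f c) = push (n - 1) f (dd n c) := by
  cases n with
  | zero => exact (map_zero _).symm
  | succ n => exact bd_push n f c

/-- chains of simplices contained in `A` -/
def SC (A : Set X) (n : ℕ) : Submodule ℤ (Ch n X) := Finsupp.supported ℤ ℤ {σ | range σ ⊆ A}

theorem single_mem_SC {A : Set X} {n : ℕ} {σ : Sx n X} (h : ∀ x, σ x ∈ A) (m : ℤ) :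
    Finsupp.single σ m ∈ SC A n :=
  Finsupp.single_mem_supported ℤ m (by rintro _ ⟨x, rfl⟩; exact h x)

theorem SC_mono {A B : Set X} (h : A ⊆ B) {n : ℕ} {c : Ch n X} (hc : c ∈ SC A n) : c ∈ SC B n :=
  Finsupp.supported_mono (fun _ hσ => hσ.trans h) hc

/-- induction for chains in `A` -/
theorem SC_induction {A : Set X} {n : ℕ} {P : Ch n X → Prop} (h0 : P 0)
    (ha : ∀ c c', P c → P c' → P (c + c')) (hs : ∀ (σ : Sx n X) m, (∀ x, σ x ∈ A) →
      P (Finsupp.single σ m)) {c : Ch n X} (hc : c ∈ SC A n) : P c := by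
  classical
  have h := hc
  rw [SC, Finsupp.mem_supported] at h
  rw [← Finsupp.sum_single c, Finsupp.sum]
  apply Finset.sum_induction _ P ha h0
  intro σ hσ
  exact hs σ _ fun x => h hσ ⟨x, rfl⟩

theorem bd_mem_SC {A : Set X} {n : ℕ} {c : Ch (n + 1) X} (hc : c ∈ SC A (n + 1)) :
    bd n c ∈ SC A n := by
  apply SC_induction (P := fun c => bd n c ∈ SC A n) _ _ _ hc
  · rw [map_zero]; exact zero_mem _
  · intro c c' h h'
    rw [map_add]; exact add_mem h h'
  · intro σ m hσ
    rw [bd_single]
    apply sum_mem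
    intro i _
    apply Submodule.smul_mem
    exact single_mem_SC (fun x => hσ (face n i x)) m

theorem dd_mem_SC {A : Set X} {n : ℕ} {c : Ch n X} (hc : c ∈ SC A n) :
    dd n c ∈ SC A (n - 1) := by
  cases n with
  | zero => exact zero_mem _
  | succ n => exact bd_mem_SC hc

theorem push_mem_SC {A : Set X} {B : Set Y} {n : ℕ} (f : C(X, Y)) (h : MapsTo f A B) {c : Ch n X}
    (hc : c ∈ SC A n) : push n f c ∈ SC B n := by
  apply SC_induction (P := fun c => push n f c ∈ SC B n) _ _ _ hc
  · rw [map_zero]; exact zero_mem _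
  · intro c c' h h'
    rw [map_add]; exact add_mem h h'
  · intro σ m hσ
    rw [push_single]
    exact single_mem_SC (fun x => h (hσ x)) m

theorem mem_SC_univ {n : ℕ} (c : Ch n X) : c ∈ SC (univ : Set X) n :=
  fun _ _ => subset_univ _

theorem mem_SC_inter {A B : Set X} {n : ℕ} {c : Ch n X} (h : c ∈ SC A n) (h' : c ∈ SC B n) :
    c ∈ SC (A ∩ B) n := fun _ hσ => subset_inter (h hσ) (h' hσ)

/-- the inclusion of a subspace -/
def incl (A : Set X) : C(A, X) := ⟨Subtype.val, continuous_subtype_val⟩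

theorem exists_push_incl {A : Set X} {n : ℕ} {c : Ch n X} (hc : c ∈ SC A n) :
    ∃ c' : Ch n A, push n (incl A) c' = c := by
  apply SC_induction (P := fun c => ∃ c' : Ch n A, push n (incl A) c' = c) _ _ _ hc
  · exact ⟨0, map_zero _⟩
  · rintro _ _ ⟨c, rfl⟩ ⟨c', rfl⟩
    exact ⟨c + c', map_add _ _ _⟩
  · intro σ m hσ
    refine ⟨Finsupp.single ⟨fun x => ⟨σ x, hσ x⟩, by fun_prop⟩ m, ?_⟩
    rw [push_single]
    rfl

theorem push_incl_injective (A : Set X) (n : ℕ) :
    Function.Injective (push n (incl A) : Ch n A → Ch n X) := by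
  rw [push]
  apply Finsupp.mapDomain_injective
  intro σ τ h
  apply ContinuousMap.ext
  intro x
  exact Subtype.ext (congrArg (fun f : Sx n X => f x) h)

end

/-! ### the group action -/

section action

variable (Γ : Type) [Group Γ] {E : Type} [TopologicalSpace E] [MulAction Γ E]
  [ContinuousConstSMul Γ E]

/-- the action on chains -/
noncomputable def rep (n : ℕ) : Γ →* Module.End ℤ (Ch n E) where
  toFun γ := Finsupp.lmapDomain ℤ ℤ fun σ : Sx n E => γ • σ
  map_one' := by
    apply LinearMap.ext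
    intro c
    rw [Finsupp.lmapDomain_apply]
    simp only [one_smul]
    exact Finsupp.mapDomain_id
  map_mul' γ γ' := by
    apply LinearMap.ext
    intro c
    rw [Module.End.mul_apply, Finsupp.lmapDomain_apply, Finsupp.lmapDomain_apply,
      Finsupp.lmapDomain_apply, ← Finsupp.mapDomain_comp]
    congr 1
    funext σ
    exact mul_smul γ γ' σ

theorem rep_single (n : ℕ) (γ : Γ) (σ : Sx n E) (m : ℤ) :
    rep Γ n γ (Finsupp.single σ m) = Finsupp.single (γ • σ) m := by
  change Finsupp.lmapDomain ℤ ℤ _ _ = _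
  rw [Finsupp.lmapDomain_apply, Finsupp.mapDomain_single]

/-- singular chains as a module over the group ring -/
def GCh (n : ℕ) (E : Type) [TopologicalSpace E] : Type := Ch n E

/-- a chain as an element of the module over the group ring -/
def gm {n : ℕ} {E : Type} [TopologicalSpace E] (c : Ch n E) : GCh n E := c

noncomputable instance (n : ℕ) : AddCommGroup (GCh n E) := inferInstanceAs (AddCommGroup (Ch n E))

noncomputable instance (n : ℕ) : Module (ZG Γ) (GCh n E) :=
  Module.compHom (Ch n E) (MonoidAlgebra.lift ℤ (Module.End ℤ (Ch n E)) Γ (rep Γ n)).toRingHom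

theorem smul_def (n : ℕ) (a : ZG Γ) (c : GCh n E) :
    (a • c : GCh n E) = (MonoidAlgebra.lift ℤ (Module.End ℤ (Ch n E)) Γ (rep Γ n)) a c := rfl

theorem elt_smul (n : ℕ) (γ : Γ) (c : GCh n E) : (elt γ • c : GCh n E) = rep Γ n γ c := by
  rw [smul_def, elt, MonoidAlgebra.lift_single, one_smul]

theorem elt_smul_single (n : ℕ) (γ : Γ) (σ : Sx n E) (m : ℤ) :
    elt γ • gm (Finsupp.single σ m) = gm (Finsupp.single (γ • σ) m) := by
  rw [elt_smul]
  exact rep_single Γ n γ σ m

theorem smul_comp_face (n : ℕ) (γ : Γ) (σ : Sx (n + 1) E) (i : Fin (n + 2)) :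
    (γ • σ).comp (face n i) = γ • σ.comp (face n i) := rfl

theorem bd_rep (n : ℕ) (γ : Γ) (c : Ch (n + 1) E) :
    bd n (rep Γ (n + 1) γ c) = rep Γ n γ (bd n c) := by
  induction c using Finsupp.induction_linear with
  | zero => simp only [map_zero]
  | add x y hx hy => simp only [map_add, hx, hy]
  | single σ m =>
    rw [rep_single, bd_single, bd_single, map_sum]
    apply Finset.sum_congr rfl
    intro i _
    rw [map_smul, rep_single]
    rfl

/-- linearity over the group ring from equivariance -/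
theorem lin_of_equiv {M N : Type} [AddCommGroup M] [AddCommGroup N] [Module (ZG Γ) M]
    [Module (ZG Γ) N] (f : M →+ N) (h : ∀ (γ : Γ) x, f (elt γ • x) = elt γ • f x) (a : ZG Γ)
    (x : M) : f (a • x) = a • f x := by
  induction a using MonoidAlgebra.induction_linear with
  | zero => rw [zero_smul, zero_smul, map_zero]
  | add a b ha hb => rw [add_smul, add_smul, map_add, ha, hb]
  | single γ m =>
    have : (MonoidAlgebra.single γ m : ZG Γ) = m • elt γ := by simp [elt]
    rw [this, smul_assoc, smul_assoc, map_zsmul, h]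

/-- the boundary map as a linear map over the group ring -/
noncomputable def gbd (n : ℕ) : GCh (n + 1) E →ₗ[ZG Γ] GCh n E where
  toFun := bd n (X := E)
  map_add' := map_add (bd n (X := E))
  map_smul' a x := lin_of_equiv Γ (M := GCh (n + 1) E) (N := GCh n E)
    (bd n (X := E)).toAddMonoidHom (fun γ c => by
      change bd n (elt γ • c : GCh (n + 1) E) = (elt γ • gm (bd n (X := E) c) : GCh n E)
      rw [elt_smul, elt_smul]
      exact bd_rep Γ n γ c) a x

theorem gbd_apply (n : ℕ) (c : GCh (n + 1) E) : gbd Γ n c = bd n (X := E) c := rfl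

variable (E) in
/-- the singular chain complex of `E` over the group ring -/
noncomputable def gCx : Cx (ZG Γ) :=
  ChainComplex.of (fun n => ModuleCat.of (ZG Γ) (GCh n E)) (fun n => ModuleCat.ofHom (gbd Γ n))
    (fun n => by
      apply ModuleCat.hom_ext
      apply LinearMap.ext
      intro c
      exact bd_bd n c)

end action

end Vale.Agent.P246.Top
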