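import Vale.Agent.P246.Bdl.K_Bdl_K_Defs
import Mathlib.Analysis.Convex.StdSimplex
import Mathlib.Topology.CWComplex.Classical.Finite
import Mathlib.Topology.Covering.Quotient
import Mathlib.Topology.Homotopy.Equiv
import Mathlib.Topology.Homotopy.Lifting
import Mathlib.AlgebraicTopology.FundamentalGroupoid.FundamentalGroup
import Mathlib.AlgebraicTopology.FundamentalGroupoid.SimplyConnected

/-!
# The D(2) property, topological form
-/

namespace Vale.Agent.P246.Top

open Topology Set

/-- The standard `n`-simplex. -/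
abbrev Dl (n : ℕ) : Type := stdSimplex ℝ (Fin (n + 1))

/-- Singular `n`-simplices of `X`. -/
abbrev Sx (n : ℕ) (X : Type) [TopologicalSpace X] : Type := C(Dl n, X)

/-- The inclusion of the face opposite to the vertex `i`. -/
noncomputable def face (n : ℕ) (i : Fin (n + 2)) : C(Dl n, Dl (n + 1)) :=
  ⟨stdSimplex.map i.succAbove, stdSimplex.continuous_map _⟩

/-- Singular `n`-chains of `X` with integral coefficients. -/
abbrev Ch (n : ℕ) (X : Type) [TopologicalSpace X] : Type := Sx n X →₀ ℤ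

/-- The singular boundary map. -/
noncomputable def bd (n : ℕ) {X : Type} [TopologicalSpace X] : Ch (n + 1) X →ₗ[ℤ] Ch n X :=
  Finsupp.linearCombination ℤ fun σ : Sx (n + 1) X =>
    ∑ i : Fin (n + 2), Finsupp.single (σ.comp (face n i)) ((-1 : ℤ) ^ (i : ℕ))

/-- `H_{n+1}(X; ℤ) = 0`. -/
def HomZero (n : ℕ) (X : Type) [TopologicalSpace X] : Prop :=
  ∀ z : Ch (n + 1) X, bd n z = 0 → ∃ w : Ch (n + 2) X, bd (n + 1) w = z

/-- `H^3 = 0` for the `Γ`-equivariant singular cochains of `E` with values in the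
`ℤ[Γ]`-module `M`. -/
def CohZero (Γ E : Type) [Group Γ] [TopologicalSpace E] [MulAction Γ E] [ContinuousConstSMul Γ E]
    (M : Type) [AddCommGroup M] [Module (ZG Γ) M] : Prop :=
  ∀ f : Sx 3 E → M, (∀ (γ : Γ) (σ : Sx 3 E), f (γ • σ) = elt γ • f σ) →
    (∀ τ : Sx 4 E, ∑ i : Fin 5, (-1 : ℤ) ^ (i : ℕ) • f (τ.comp (face 3 i)) = 0) →
    ∃ b : Sx 2 E → M, (∀ (γ : Γ) (σ : Sx 2 E), b (γ • σ) = elt γ • b σ) ∧
      ∀ σ : Sx 3 E, f σ = ∑ i : Fin 4, (-1 : ℤ) ^ (i : ℕ) • b (σ.comp (face 2 i))

/-- The `D(2)` condition: the universal covering `E` of `X`, with group `Γ` of deck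
transformations, satisfies `H_i(E; ℤ) = 0` for all `i > 2`, and `H^3(X; M) = 0` for every finitely
generated `ℤ[Γ]`-module `M`. -/
def D2Condition (X : Type) [TopologicalSpace X] : Prop :=
  ∃ (E Γ : Type) (_ : TopologicalSpace E) (_ : Group Γ) (_ : MulAction Γ E)
    (_ : ContinuousConstSMul Γ E) (p : E → X), IsQuotientCoveringMap p Γ ∧
    SimplyConnectedSpace E ∧ (∀ i, 2 ≤ i → HomZero i E) ∧
    ∀ (M : Type) [AddCommGroup M] [Module (ZG Γ) M], Module.Finite (ZG Γ) M → CohZero Γ E M

/-- The `D(2)` property of the group `G`: every finite connected CW complex `X` with fundamental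
group `G` which satisfies the `D(2)` condition is homotopy equivalent to a finite CW complex `Y`
of dimension at most two. -/
def D2Property (G : Type) [Group G] : Prop :=
  ∀ (X : Type) [TopologicalSpace X] [T2Space X] [CWComplex (univ : Set X)]
    [RelCWComplex.Finite (univ : Set X)] [PathConnectedSpace X],
    (∀ x : X, Nonempty (FundamentalGroup X x ≃* G)) → D2Condition X →
    ∃ (Y : Type) (_ : TopologicalSpace Y) (_ : T2Space Y) (_ : CWComplex (univ : Set Y)),
      RelCWComplex.Finite (univ : Set Y) ∧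
      (∀ n, 2 < n → IsEmpty (RelCWComplex.cell (univ : Set Y) n)) ∧
      Nonempty (ContinuousMap.HomotopyEquiv X Y)

end Vale.Agent.P246.Top
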