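import Vale.Agent.P246.Top.SpecH

/-!
# Topological D(2) property: statements of the blocks B, C (cells and the finite model),
F (presentation complex), K, G (comparison with the Fox complex)
-/

set_option linter.all false

namespace Vale.Agent.P246.Top

open Topology Set CategoryTheory

section

variable {X : Type} [TopologicalSpace X]

/-- `B` is obtained from the closed set `A` by attaching the family of `n`-cells `χ` -/
structure AttF (n : ℕ) {κ : Type} (A B : Set X) (χ : κ → Sx n X) : Prop where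
  closed : IsClosed A
  eq : B = A ∪ ⋃ k, range (χ k)
  bdry : ∀ k, ∀ x ∈ bdry n, χ k x ∈ A
  inj : ∀ k k' x x', x ∉ Top.bdry n → x' ∉ Top.bdry n → χ k x = χ k' x' → k = k' ∧ x = x'
  disj : ∀ k x, x ∉ Top.bdry n → χ k x ∉ A

/-- The simplices `χ` are the characteristic maps of a cell structure of `X`: `X` is the disjoint
union of the open cells, and the boundary of each cell lies in the union of the cells of lower
dimension. -/
structure IsCells (κ : ℕ → Type) (χ : ∀ n, κ n → Sx n X) : Prop where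
  inj : ∀ n n' (k : κ n) (k' : κ n') x x', x ∉ bdry n → x' ∉ bdry n' → χ n k x = χ n' k' x' →
    (⟨n, k, x⟩ : Σ n, κ n × Dl n) = ⟨n', k', x'⟩
  surj : ∀ y : X, ∃ n k x, x ∉ bdry n ∧ χ n k x = y
  bd : ∀ n k, ∀ x ∈ bdry n, ∃ m < n, ∃ k' y, χ m k' y = χ n k x

variable (X) in
/-- A finite cell structure on `X` (cells are simplices). -/
structure FinCell where
  κ : ℕ → Type
  fin : ∀ n, Fintype (κ n)
  N : ℕ
  empty : ∀ n, N < n → IsEmpty (κ n)
  χ : ∀ n, κ n → Sx n X
  is : IsCells κ χ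

attribute [instance] FinCell.fin

/-- the union of the cells of dimension `< n` -/
def FinCell.sk (C : FinCell X) (n : ℕ) : Set X := {x | ∃ m < n, ∃ k y, C.χ m k y = x}

end

/-! ### CW complexes -/

/-- CW0: the standard simplex is homeomorphic to the closed ball of the maximum norm -/
def SpecBall : Prop := ∀ n : ℕ, ∃ h : Dl n ≃ₜ Metric.closedBall (0 : Fin n → ℝ) 1,
  ∀ x, x ∈ bdry n ↔ (h x : Fin n → ℝ) ∈ Metric.sphere (0 : Fin n → ℝ) 1

/-- CW1 (from CW0): finite CW complexes have a finite cell structure -/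
def SpecCell1 : Prop := ∀ (X : Type) [TopologicalSpace X] [T2Space X] [CWComplex (univ : Set X)]
  [RelCWComplex.Finite (univ : Set X)], Nonempty (FinCell X)

/-- CW2 (from CW0): spaces with a finite cell structure are finite CW complexes -/
def SpecCell2 : Prop := ∀ (X : Type) [TopologicalSpace X] [T2Space X] (C : FinCell X),
  ∃ _ : CWComplex (univ : Set X), RelCWComplex.Finite (univ : Set X) ∧
    ∀ n, IsEmpty (C.κ n) → IsEmpty (RelCWComplex.cell (univ : Set X) n)

/-- CW3: the skeleta of a finite cell structure -/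
def SpecCell3 : Prop := ∀ (X : Type) [TopologicalSpace X] [T2Space X] (C : FinCell X),
  C.sk 0 = ∅ ∧ C.sk (C.N + 1) = univ ∧ ∀ n, AttF n (C.sk n) (C.sk (n + 1)) (C.χ n)

/-! ### B : attaching cells and coverings -/

section

variable {Γ : Type} [Group Γ] {E : Type} [TopologicalSpace E] [MulAction Γ E]
  [ContinuousConstSMul Γ E]

/-- a singular simplex as an element of the chain module over the group ring -/
noncomputable def gs {n : ℕ} (σ : Sx n E) : GCh n E := gm (Finsupp.single σ 1)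

/-- an element of the chain module over the group ring as a chain -/
def ug {n : ℕ} {E : Type} [TopologicalSpace E] (c : GCh n E) : Ch n E := c

/-- the combination `∑ a_k s_k` of singular simplices with coefficients in the group ring -/
noncomputable def cmb {n : ℕ} {κ : Type} [Fintype κ] (a : κ → ZG Γ) (s : κ → Sx n E) : GCh n E :=
  ∑ k, a k • gs (s k)

end

/-- B1: the cellwise extension of a homotopy `h` of the simplex which is constant on the boundary,
lifted to the covering -/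
def SpecHty : Prop := ∀ (X E Γ : Type) [TopologicalSpace X] [T2Space X] [TopologicalSpace E]
  [Group Γ] [MulAction Γ E] [ContinuousConstSMul Γ E] (p : E → X), IsQuotientCoveringMap p Γ →
  ∀ (n : ℕ) (κ : Type) [Fintype κ] (A B : Set X) (χ : κ → Sx n X), AttF n A B χ →
  ∀ s : κ → Sx n E, (∀ k x, p (s k x) = χ k x) →
  ∀ h : C(I × Dl n, Dl n), (∀ x, h (0, x) = x) → (∀ t, ∀ x ∈ bdry n, h (t, x) = x) →
  ∃ H : C(I × (p ⁻¹' B : Set E), (p ⁻¹' B : Set E)),
    (∀ x, H (0, x) = x) ∧ (∀ t (x : (p ⁻¹' B : Set E)), p x ∈ A → H (t, x) = x) ∧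
    ∀ t (γ : Γ) k x (y y' : (p ⁻¹' B : Set E)), (y : E) = γ • s k x →
      (y' : E) = γ • s k (h (t, x)) → H (t, y) = y'

/-- B: the relative homology of a covering of `B = A ∪ (n-cells)` modulo the part over `A` is free
on the lifted cells, in degree `n` (from A1, A3, A4, B1) -/
def SpecAtt : Prop := ∀ (X E Γ : Type) [TopologicalSpace X] [T2Space X] [TopologicalSpace E]
  [Group Γ] [MulAction Γ E] [ContinuousConstSMul Γ E] (p : E → X), IsQuotientCoveringMap p Γ →
  ∀ (n : ℕ) (κ : Type) [Fintype κ] (A B : Set X) (χ : κ → Sx n X), AttF n A B χ →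
  ∀ s : κ → Sx n E, (∀ k x, p (s k x) = χ k x) →
  (∀ i, i ≠ n → ∀ c ∈ SC (p ⁻¹' B) i, dd i c ∈ SC (p ⁻¹' A) (i - 1) →
    ∃ b ∈ SC (p ⁻¹' B) (i + 1), c - bd i b ∈ SC (p ⁻¹' A) i) ∧
  (∀ c ∈ SC (p ⁻¹' B) n, dd n c ∈ SC (p ⁻¹' A) (n - 1) →
    ∃ a : κ → ZG Γ, ∃ b ∈ SC (p ⁻¹' B) (n + 1),
      c - ug (cmb a s) - bd n b ∈ SC (p ⁻¹' A) n) ∧
  (∀ a : κ → ZG Γ, ∀ b ∈ SC (p ⁻¹' B) (n + 1),
    ug (cmb a s) - bd n b ∈ SC (p ⁻¹' A) n → a = 0)

/-! ### C : the finite model -/

section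

variable {R : Type} [Ring R] {S : ℕ → Type} [∀ i, AddCommGroup (S i)] [∀ i, Module R (S i)]

/-- the boundary map in all degrees -/
def ddf (d : ∀ i, S (i + 1) →ₗ[R] S i) : ∀ i, S i →ₗ[R] S (i - 1)
  | 0 => 0
  | i + 1 => d i

variable (R) in
/-- A complex `(S, d)` with a finite filtration `T 0 = 0 ≤ T 1 ≤ …` by subcomplexes such that
`T (n + 1) / T n` has homology free on `s n`, in degree `n`. -/
structure Filt (d : ∀ i, S (i + 1) →ₗ[R] S i) (κ : ℕ → Type) [∀ n, Fintype (κ n)] where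
  T : ℕ → ∀ i, Submodule R (S i)
  N : ℕ
  s : ∀ n, κ n → S n
  zero : ∀ i, T 0 i = ⊥
  top : ∀ i, T (N + 1) i = ⊤
  mono : ∀ n i, T n i ≤ T (n + 1) i
  d_mem : ∀ n i, ∀ c ∈ T n (i + 1), d i c ∈ T n i
  s_mem : ∀ n k, s n k ∈ T (n + 1) n
  ds_mem : ∀ n k, d n (s (n + 1) k) ∈ T (n + 1) n
  empty : ∀ n, N < n → IsEmpty (κ n)
  off : ∀ n i, i ≠ n → ∀ c ∈ T (n + 1) i, ddf d i c ∈ T n (i - 1) →
    ∃ b ∈ T (n + 1) (i + 1), c - d i b ∈ T n i
  gen : ∀ n, ∀ c ∈ T (n + 1) n, ddf d n c ∈ T n (n - 1) →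
    ∃ a : κ n → R, ∃ b ∈ T (n + 1) (n + 1), c - ∑ k, a k • s n k - d n b ∈ T n n
  free : ∀ n (a : κ n → R), ∀ b ∈ T (n + 1) (n + 1),
    ∑ k, a k • s n k - d n b ∈ T n n → a = 0

/-- `φ : (F, dF) → (S, d)` is an isomorphism on homology -/
def QI {F : ℕ → Type} [∀ i, AddCommGroup (F i)] [∀ i, Module R (F i)]
    (dF : ∀ i, F (i + 1) →ₗ[R] F i) (d : ∀ i, S (i + 1) →ₗ[R] S i) (φ : ∀ i, F i →ₗ[R] S i) :
    Prop :=
  ∀ i, (∀ c : S i, ddf d i c = 0 → ∃ a : F i, ddf dF i a = 0 ∧ ∃ b : S (i + 1),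
      φ i a - c = d i b) ∧
    ∀ a : F i, ddf dF i a = 0 → ∀ b : S (i + 1), φ i a = d i b → ∃ a' : F (i + 1), a = dF i a'

end

/-- C1 (algebra): a chain map from the free modules on `κ` which sends the basis to the generators
modulo the lower filtration is an isomorphism on homology -/
def SpecQI : Prop := ∀ (R : Type) [Ring R] (S : ℕ → Type) [∀ i, AddCommGroup (S i)]
  [∀ i, Module R (S i)] (d : ∀ i, S (i + 1) →ₗ[R] S i), (∀ i x, d i (d (i + 1) x) = 0) →
  ∀ (κ : ℕ → Type) [∀ n, Fintype (κ n)] [∀ n, DecidableEq (κ n)] (F : Filt R d κ)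
    (dF : ∀ i, (κ (i + 1) → R) →ₗ[R] (κ i → R)) (φ : ∀ i, (κ i → R) →ₗ[R] S i),
    (∀ i x, dF i (dF (i + 1) x) = 0) → (∀ i x, φ i (dF i x) = d i (φ (i + 1) x)) →
    (∀ i k, φ i (Pi.single k 1) - F.s i k ∈ F.T i i) → QI dF d φ

/-- C2 (algebra): such a chain map exists -/
def SpecModel : Prop := ∀ (R : Type) [Ring R] (S : ℕ → Type) [∀ i, AddCommGroup (S i)]
  [∀ i, Module R (S i)] (d : ∀ i, S (i + 1) →ₗ[R] S i), (∀ i x, d i (d (i + 1) x) = 0) →
  ∀ (κ : ℕ → Type) [∀ n, Fintype (κ n)] [∀ n, DecidableEq (κ n)] (F : Filt R d κ),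
    ∃ (dF : ∀ i, (κ (i + 1) → R) →ₗ[R] (κ i → R)) (φ : ∀ i, (κ i → R) →ₗ[R] S i),
    (∀ i x, dF i (dF (i + 1) x) = 0) ∧ (∀ i x, φ i (dF i x) = d i (φ (i + 1) x)) ∧
    ∀ i k, φ i (Pi.single k 1) - F.s i k ∈ F.T i i

/-- C3: the singular chains of a covering of a finite cell complex (from B, CW3) -/
def SpecFilt : Prop := ∀ (X E Γ : Type) [TopologicalSpace X] [T2Space X] [TopologicalSpace E]
  [Group Γ] [MulAction Γ E] [ContinuousConstSMul Γ E] (p : E → X), IsQuotientCoveringMap p Γ →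
  ∀ (C : FinCell X) (s : ∀ n, C.κ n → Sx n E), (∀ n k x, p (s n k x) = C.χ n k x) →
  ∃ F : Filt (ZG Γ) (gbd Γ (E := E)) C.κ, F.N = C.N ∧ (∀ n k, F.s n k = gs (s n k)) ∧
    ∀ n i (c : GCh i E), c ∈ F.T n i ↔ ug c ∈ SC (p ⁻¹' C.sk n) i

/-- C4: cells can be lifted to coverings -/
def SpecLift : Prop := ∀ (X E Γ : Type) [TopologicalSpace X] [TopologicalSpace E]
  [Group Γ] [MulAction Γ E] (p : E → X), IsQuotientCoveringMap p Γ →
  ∀ (n : ℕ) (σ : Sx n X), ∃ s : Sx n E, ∀ x, p (s x) = σ x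

/-- C5: the chain modules are free if the action is free -/
def SpecFree : Prop := ∀ (E Γ : Type) [TopologicalSpace E] [Group Γ] [MulAction Γ E]
  [ContinuousConstSMul Γ E], (∀ (γ : Γ) (x : E), γ • x = x → γ = 1) →
  ∀ n, Module.Free (ZG Γ) (GCh n E)

/-- C6: low homology of simply connected spaces -/
def SpecLowH : Prop := ∀ (E : Type) [TopologicalSpace E], SimplyConnectedSpace E →
  HomZero 0 E ∧ ∀ c : Ch 0 E, (c.sum fun _ m => m) = 0 → ∃ b : Ch 1 E, bd 0 b = c

/-- C: the finite model of the singular chains of the universal cover of a finite CW complex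
which satisfies the D(2) condition (from C1 - C6, CW1) -/
def SpecFin : Prop := ∀ (X E Γ : Type) [TopologicalSpace X] [T2Space X]
  [CWComplex (univ : Set X)] [RelCWComplex.Finite (univ : Set X)] [TopologicalSpace E]
  [Group Γ] [MulAction Γ E] [ContinuousConstSMul Γ E] (p : E → X), IsQuotientCoveringMap p Γ →
  SimplyConnectedSpace E → (∀ i, 2 ≤ i → HomZero i E) →
  (∀ (M : Type) [AddCommGroup M] [Module (ZG Γ) M], Module.Finite (ZG Γ) M → CohZero Γ E M) →
  ∃ C : Cx (ZG Γ), IsD2Complex C ∧ C.Equiv (gCx Γ E)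

/-! ### F : the presentation complex -/

/-- F1: attaching `n`-cells to a compact Hausdorff space -/
def SpecAttach : Prop := ∀ (Z : Type) [TopologicalSpace Z] [CompactSpace Z] [T2Space Z] (n : ℕ)
  (κ : Type) [Finite κ] (g : κ → C(bdry n, Z)),
  ∃ (Y : Type) (_ : TopologicalSpace Y) (_ : CompactSpace Y) (_ : T2Space Y) (ι : C(Z, Y))
    (χ : κ → Sx n Y), (∀ k (x : bdry n), χ k x = ι (g k x)) ∧ Function.Injective ι ∧
    AttF n (range ι) univ χ

/-- F2: gluing of maps -/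
def SpecGlue : Prop := ∀ (Y : Type) [TopologicalSpace Y] [T2Space Y] (n : ℕ) (κ : Type) [Finite κ]
  (A : Set Y) (χ : κ → Sx n Y), AttF n A univ χ → ∀ (W : Type) [TopologicalSpace W] (f : C(A, W))
  (h : κ → Sx n W), (∀ k x (y : A), x ∈ bdry n → χ k x = y → h k x = f y) →
  ∃ F : C(Y, W), (∀ y : A, F y = f y) ∧ ∀ k x, F (χ k x) = h k x

section

variable {X : Type} [TopologicalSpace X]

/-- a path as a singular `1`-simplex -/
noncomputable def psx {x y : X} (γ : Path x y) : Sx 1 X :=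
  ⟨fun z => γ ⟨z 1, stdSimplex.zero_le z 1, stdSimplex.le_one z 1⟩,
    γ.continuous.comp (by
      apply Continuous.subtype_mk
      exact (continuous_apply (1 : Fin 2)).comp continuous_subtype_val)⟩

/-- the word path of a family of loops -/
noncomputable def wp {m : ℕ} {x : X} (ℓ : Fin m → Path x x) : List (Fin m × Bool) → Path x x
  | [] => Path.refl x
  | (i, true) :: w => (ℓ i).trans (wp ℓ w)
  | (i, false) :: w => (ℓ i).symm.trans (wp ℓ w)

end

section

variable {Γ : Type} [Group Γ]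

/-- the value of a word -/
def wd {m : ℕ} (x : Fin m → Γ) : List (Fin m × Bool) → Γ
  | [] => 1
  | (i, true) :: w => x i * wd x w
  | (i, false) :: w => (x i)⁻¹ * wd x w

variable {E : Type} [TopologicalSpace E] [MulAction Γ E] [ContinuousConstSMul Γ E]

/-- translate of a path -/
noncomputable def tr (γ : Γ) {x y : E} (α : Path x y) : Path (γ • x) (γ • y) :=
  α.map (continuous_const_smul γ)

/-- the lifted word path -/
noncomputable def lw {m : ℕ} {x : Fin m → Γ} {e : E} (ℓ : ∀ i, Path e (x i • e)) :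
    ∀ w : List (Fin m × Bool), Path e (wd x w • e)
  | [] => (Path.refl e).cast rfl (one_smul Γ e)
  | (i, true) :: w => ((ℓ i).trans (tr (x i) (lw ℓ w))).cast rfl (mul_smul _ _ _)
  | (i, false) :: w => ((tr (x i)⁻¹ (ℓ i)).symm.trans
      ((tr (x i)⁻¹ (lw ℓ w)).cast rfl rfl)).cast (inv_smul_smul (x i) e).symm (mul_smul _ _ _)

variable (P : FinPresentation Γ)

/-- the cells of the presentation complex -/
def pck : ℕ → Type
  | 0 => Unit
  | 1 => Fin P.gens
  | 2 => Fin P.rels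
  | _ + 3 => Empty

instance pck.fintype : ∀ n, Fintype (pck P n)
  | 0 => inferInstanceAs (Fintype Unit)
  | 1 => inferInstanceAs (Fintype (Fin P.gens))
  | 2 => inferInstanceAs (Fintype (Fin P.rels))
  | _ + 3 => inferInstanceAs (Fintype Empty)

instance pck.decidableEq : ∀ n, DecidableEq (pck P n)
  | 0 => inferInstanceAs (DecidableEq Unit)
  | 1 => inferInstanceAs (DecidableEq (Fin P.gens))
  | 2 => inferInstanceAs (DecidableEq (Fin P.rels))
  | _ + 3 => inferInstanceAs (DecidableEq Empty)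

/-- `Y` is the presentation complex of `P`: a point `y₀`, loops `a i`, and `2`-cells `D j` whose
face opposite to the vertex `0` is the word path of the relator, the other faces being constant -/
structure PC (Y : Type) [TopologicalSpace Y] where
  y₀ : Y
  a : Fin P.gens → Path y₀ y₀
  D : Fin P.rels → Sx 2 Y
  face0 : ∀ j, (D j).comp (face 1 0) = psx (wp a (P.r j).toWord)
  face1 : ∀ j, (D j).comp (face 1 1) = cst 1 y₀
  face2 : ∀ j, (D j).comp (face 1 2) = cst 1 y₀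
  Y₁ : Set Y
  att1 : AttF 1 {y₀} Y₁ fun i => psx (a i)
  att2 : AttF 2 Y₁ univ D

variable {P} in
/-- the characteristic maps of the cells of a presentation complex -/
noncomputable def PC.χ {Y : Type} [TopologicalSpace Y] (Q : PC P Y) : ∀ n, pck P n → Sx n Y
  | 0 => fun _ => cst 0 Q.y₀
  | 1 => fun i => psx (Q.a i)
  | 2 => Q.D
  | _ + 3 => fun e => Empty.elim e

end

/-- F3: existence and universal property of the presentation complex (from F1, F2) -/
def SpecPC : Prop := ∀ (Γ : Type) [Group Γ] (P : FinPresentation Γ),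
  ∃ (Y : Type) (_ : TopologicalSpace Y) (_ : CompactSpace Y) (_ : T2Space Y) (Q : PC P Y),
    ∀ (X : Type) [TopologicalSpace X] (x₀ : X) (ℓ : Fin P.gens → Path x₀ x₀)
      (δ : Fin P.rels → Sx 2 X), (∀ j, (δ j).comp (face 1 0) = psx (wp ℓ (P.r j).toWord)) →
      (∀ j, (δ j).comp (face 1 1) = cst 1 x₀) → (∀ j, (δ j).comp (face 1 2) = cst 1 x₀) →
      ∃ f : C(Y, X), f Q.y₀ = x₀ ∧ (∀ i t, f (Q.a i t) = ℓ i t) ∧ ∀ j, f.comp (Q.D j) = δ j

/-- F3': its cell structure -/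
def SpecPCell : Prop := ∀ (Γ : Type) [Group Γ] (P : FinPresentation Γ) (Y : Type)
  [TopologicalSpace Y] [T2Space Y] (Q : PC P Y), IsCells (pck P) Q.χ

/-- the cell structure of the presentation complex -/
noncomputable def PC.cell {Γ : Type} [Group Γ] {P : FinPresentation Γ} {Y : Type}
    [TopologicalSpace Y] (Q : PC P Y) (h : IsCells (pck P) Q.χ) : FinCell Y where
  κ := pck P
  fin := pck.fintype P
  N := 2
  empty n hn := by
    match n, hn with
    | n + 3, _ => exact inferInstanceAs (IsEmpty Empty)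
  χ := Q.χ
  is := h

/-- F4: the fundamental group of `X = A ∪ (cells of dimension n + 1)` is generated by loops in `A`
and by arcs through the cells (Lebesgue number) -/
def SpecLoops : Prop := ∀ (X : Type) [TopologicalSpace X] [T2Space X] (n : ℕ) (κ : Type)
  [Finite κ] (A : Set X) (χ : κ → Sx (n + 1) X), AttF (n + 1) A univ χ → IsPathConnected A →
  ∀ x₀ ∈ A, ∀ Q : Path x₀ x₀ → Prop,
  (∀ γ γ' : Path x₀ x₀, γ.Homotopic γ' → Q γ → Q γ') →
  (∀ γ γ' : Path x₀ x₀, Q γ → Q γ' → Q (γ.trans γ')) →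
  (∀ γ : Path x₀ x₀, Q γ → Q γ.symm) →
  (∀ γ : Path x₀ x₀, (∀ t, γ t ∈ A) → Q γ) →
  (∀ (k : κ) (b b' : Dl (n + 1)), b ∈ bdry (n + 1) → b' ∈ bdry (n + 1) → ∀ (ε : Path b b')
    (α : Path x₀ (χ k b)) (β : Path (χ k b') x₀), (∀ t, α t ∈ A) → (∀ t, β t ∈ A) →
    Q ((α.trans (ε.map (χ k).continuous)).trans β)) →
  ∀ γ : Path x₀ x₀, Q γ

/-- F4': loops in the presentation complex are homotopic to word paths (from F4) -/
def SpecWords : Prop := ∀ (Γ : Type) [Group Γ] (P : FinPresentation Γ) (Y : Type)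
  [TopologicalSpace Y] [T2Space Y] (Q : PC P Y), PathConnectedSpace Y ∧
  ∀ γ : Path Q.y₀ Q.y₀, ∃ w : List (Fin P.gens × Bool), γ.Homotopic (wp Q.a w)

section

variable {X Y E Γ : Type} [TopologicalSpace X] [TopologicalSpace Y] [TopologicalSpace E]
  [Group Γ] [MulAction Γ E]

/-- the action on the pull back -/
@[reducible] def pbAct (f : Y → X) (p : E → X) (h : ∀ (γ : Γ) e, p (γ • e) = p e) :
    MulAction Γ (Pb f p) where
  smul γ z := ⟨(z.1.1, γ • z.1.2), z.2.trans (h γ z.1.2).symm⟩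
  one_smul z := Subtype.ext (Prod.ext rfl (one_smul Γ z.1.2))
  mul_smul γ γ' z := Subtype.ext (Prod.ext rfl (mul_smul γ γ' z.1.2))

end

/-- F5: the pulled back covering -/
def SpecPb : Prop := ∀ (X Y E Γ : Type) [TopologicalSpace X] [TopologicalSpace Y]
  [TopologicalSpace E] [Group Γ] [MulAction Γ E] (f : C(Y, X)) (p : E → X)
  (hp : IsQuotientCoveringMap p Γ),
  @IsQuotientCoveringMap (Pb f p) Y _ _ (fun z => z.1.1) Γ _ (pbAct f p fun γ e => hp.map_smul γ)

/-- F6: the pull back of the universal covering to the presentation complex is simply connected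
(from F4', F5) -/
def SpecSC : Prop := ∀ (Γ X Y E : Type) [Group Γ] (P : FinPresentation Γ) [TopologicalSpace X]
  [TopologicalSpace Y] [T2Space Y] [TopologicalSpace E] [MulAction Γ E]
  [ContinuousConstSMul Γ E] (p : E → X), IsQuotientCoveringMap p Γ → SimplyConnectedSpace E →
  ∀ (Q : PC P Y) (f : C(Y, X)) (e₀ : E) (ℓ : ∀ i, Path e₀ (P.x i • e₀)), f Q.y₀ = p e₀ →
  (∀ i t, f (Q.a i t) = p (ℓ i t)) → SimplyConnectedSpace (Pb f p)

/-! ### K : chains of words -/

/-- K: the chain of a lifted word path and its Fox derivatives: natural `2`-chains `K w` with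
`∂ K w = [w] - ∑_k (∂w/∂x_k) [ℓ k]` -/
structure WordK where
  K : ∀ (m : ℕ) (Γ E : Type) [Group Γ] [TopologicalSpace E]
    [MulAction Γ E] [ContinuousConstSMul Γ E] (x : Fin m → Γ) (e : E)
    (_ : ∀ i, Path e (x i • e)), List (Fin m × Bool) → Ch 2 E
  bdy : ∀ (m : ℕ) (Γ E : Type) [Group Γ] [TopologicalSpace E] [MulAction Γ E]
    [ContinuousConstSMul Γ E] (x : Fin m → Γ) (e : E) (ℓ : ∀ i, Path e (x i • e))
    (w : List (Fin m × Bool)), (bd 1 (K m Γ E x e ℓ w) : Ch 1 E) =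
      Finsupp.single (psx (lw ℓ w)) 1 -
        ug (∑ k, foxWord x w k • gs (psx (ℓ k)) : GCh 1 E)
  nat : ∀ (m : ℕ) (Γ E E' : Type) [Group Γ] [TopologicalSpace E] [MulAction Γ E]
    [ContinuousConstSMul Γ E] [TopologicalSpace E'] [MulAction Γ E'] [ContinuousConstSMul Γ E']
    (x : Fin m → Γ) (e : E) (ℓ : ∀ i, Path e (x i • e)) (e' : E')
    (ℓ' : ∀ i, Path e' (x i • e')) (g : C(E, E')), (∀ (γ : Γ) z, g (γ • z) = γ • g z) →
    g e = e' → (∀ i t, g (ℓ i t) = ℓ' i t) →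
    ∀ w, push 2 g (K m Γ E x e ℓ w) = K m Γ E' x e' ℓ' w
  supp : ∀ (m : ℕ) (Γ E : Type) [Group Γ] [TopologicalSpace E] [MulAction Γ E]
    [ContinuousConstSMul Γ E] (x : Fin m → Γ) (e : E) (ℓ : ∀ i, Path e (x i • e)) (W : Set E),
    (∀ (γ : Γ), γ • e ∈ W) → (∀ (γ : Γ) i t, γ • ℓ i t ∈ W) →
    ∀ w, K m Γ E x e ℓ w ∈ SC W 2

/-- K: existence -/
def SpecWord : Prop := Nonempty WordK

/-- K': lifted word paths, projections, equivariant maps, values of words -/
def SpecLw : Prop := (∀ (m : ℕ) (Γ E X : Type) [Group Γ] [TopologicalSpace E] [MulAction Γ E]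
  [ContinuousConstSMul Γ E] [TopologicalSpace X] (p : E → X), (∀ (γ : Γ) e, p (γ • e) = p e) →
  ∀ (x : Fin m → Γ) (e : E) (ℓ : ∀ i, Path e (x i • e)) (x₀ : X) (ℓ' : Fin m → Path x₀ x₀),
  p e = x₀ → (∀ i t, p (ℓ i t) = ℓ' i t) → ∀ w t, p (lw ℓ w t) = wp ℓ' w t) ∧
  (∀ (m : ℕ) (Γ E E' : Type) [Group Γ] [TopologicalSpace E] [MulAction Γ E]
  [ContinuousConstSMul Γ E] [TopologicalSpace E'] [MulAction Γ E'] [ContinuousConstSMul Γ E']
  (g : E → E'), (∀ (γ : Γ) e, g (γ • e) = γ • g e) →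
  ∀ (x : Fin m → Γ) (e : E) (ℓ : ∀ i, Path e (x i • e)) (e' : E') (ℓ' : ∀ i, Path e' (x i • e')),
  g e = e' → (∀ i t, g (ℓ i t) = ℓ' i t) → ∀ w t, g (lw ℓ w t) = lw ℓ' w t) ∧
  (∀ (m : ℕ) (Γ : Type) [Group Γ] (x : Fin m → Γ) (r : FreeGroup (Fin m)),
    wd x r.toWord = FreeGroup.lift x r)

/-! ### G : comparison with the Fox complex -/

section

variable {Γ : Type} [Group Γ] (P : FinPresentation Γ)

/-- the boundary maps of the Fox complex on the modules `pck P n → ℤ[Γ]` -/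
noncomputable def fd : ∀ n, (pck P (n + 1) → ZG Γ) →ₗ[ZG Γ] (pck P n → ZG Γ)
  | 0 => (LinearMap.pi fun _ => lmap fun i : Fin P.gens => (elt (P.x i) - 1 : ZG Γ))
  | 1 => lmap fun j : Fin P.rels => foxWord P.x (P.r j).toWord
  | _ + 2 => 0

variable {E : Type} [TopologicalSpace E] [MulAction Γ E] [ContinuousConstSMul Γ E]

/-- the chain map from the Fox complex given by a base point, paths and `2`-chains -/
noncomputable def fm {e : E} (ℓ : ∀ i, Path e (P.x i • e)) (c : Fin P.rels → Ch 2 E) :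
    ∀ n, (pck P n → ZG Γ) →ₗ[ZG Γ] GCh n E
  | 0 => Fintype.linearCombination (ZG Γ) fun _ : Unit => gs (cst 0 e)
  | 1 => Fintype.linearCombination (ZG Γ) fun i : Fin P.gens => gs (psx (ℓ i))
  | 2 => Fintype.linearCombination (ZG Γ) fun j : Fin P.rels => gm (c j)
  | _ + 3 => 0

end

/-- G1: the complex `fd` is the Fox complex: a homotopy equivalence from the Fox complex gives
maps which are isomorphisms on homology, with augmentation `1` -/
def SpecFox : Prop := ∀ (E Γ : Type) [TopologicalSpace E] [Group Γ] [MulAction Γ E]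
  [ContinuousConstSMul Γ E] (P : FinPresentation Γ), SimplyConnectedSpace E →
  (gCx Γ E).Equiv (foxComplex P) → ∃ φ : ∀ n, (pck P n → ZG Γ) →ₗ[ZG Γ] GCh n E,
    (∀ n x, φ n (fd P n x) = gbd Γ n (φ (n + 1) x)) ∧ QI (fd P) (gbd Γ (E := E)) φ ∧
    (Finsupp.sum (ug (φ 0 (Pi.single () 1))) fun _ m => m) = 1

/-- the chain map from the Fox complex given by a base point, paths and discs -/
noncomputable def fk (W : WordK) {Γ : Type} [Group Γ] (P : FinPresentation Γ) {E : Type}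
    [TopologicalSpace E] [MulAction Γ E] [ContinuousConstSMul Γ E] {e : E}
    (ℓ : ∀ i, Path e (P.x i • e)) (δ : Fin P.rels → Sx 2 E) :
    ∀ n, (pck P n → ZG Γ) →ₗ[ZG Γ] GCh n E :=
  fm P ℓ fun j => Finsupp.single (δ j) 1 - W.K _ Γ E P.x e ℓ (P.r j).toWord

/-- the discs `δ j` have the lifted relators as boundaries -/
structure Dsc {Γ : Type} [Group Γ] (P : FinPresentation Γ) {E : Type}
    [TopologicalSpace E] [MulAction Γ E] [ContinuousConstSMul Γ E] {e : E}
    (ℓ : ∀ i, Path e (P.x i • e)) (δ : Fin P.rels → Sx 2 E) : Prop where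
  face0 : ∀ j, (δ j).comp (face 1 0) = psx (lw ℓ (P.r j).toWord)
  face1 : ∀ j, (δ j).comp (face 1 1) = cst 1 e
  face2 : ∀ j, (δ j).comp (face 1 2) = cst 1 e

/-- G0: it is a chain map -/
def SpecChain : Prop := ∀ (W : WordK) (E Γ : Type) [TopologicalSpace E] [Group Γ] [MulAction Γ E]
  [ContinuousConstSMul Γ E] (P : FinPresentation Γ) (e : E) (ℓ : ∀ i, Path e (P.x i • e))
  (δ : Fin P.rels → Sx 2 E), Dsc P ℓ δ →
  ∀ n x, fk W P ℓ δ n (fd P n x) = gbd Γ n (fk W P ℓ δ (n + 1) x)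

/-- G2: the choice of the discs (from DD, K, C6, G0): the map `φ` can be replaced by a map given
by paths and discs -/
def SpecDiscs : Prop := ∀ (W : WordK) (E Γ : Type) [TopologicalSpace E] [Group Γ] [MulAction Γ E]
  [ContinuousConstSMul Γ E] (P : FinPresentation Γ), SimplyConnectedSpace E →
  ∀ φ : ∀ n, (pck P n → ZG Γ) →ₗ[ZG Γ] GCh n E,
    (∀ n x, φ n (fd P n x) = gbd Γ n (φ (n + 1) x)) → QI (fd P) (gbd Γ (E := E)) φ →
    (Finsupp.sum (ug (φ 0 (Pi.single () 1))) fun _ m => m) = 1 →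
  ∃ (e : E) (ℓ : ∀ i, Path e (P.x i • e)) (δ : Fin P.rels → Sx 2 E), Dsc P ℓ δ ∧
    QI (fd P) (gbd Γ (E := E)) (fk W P ℓ δ)

/-- G3: the chain map from the Fox complex to the chains of a covering of the presentation complex
is an isomorphism on homology (from C1, C3, F3', G0) -/
def SpecFoxY : Prop := ∀ (W : WordK) (Γ Y Z : Type) [Group Γ] (P : FinPresentation Γ)
  [TopologicalSpace Y] [T2Space Y] [TopologicalSpace Z] [MulAction Γ Z]
  [ContinuousConstSMul Γ Z] (q : Z → Y), IsQuotientCoveringMap q Γ → ∀ (Q : PC P Y) (z : Z)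
  (ℓ : ∀ i, Path z (P.x i • z)) (δ : Fin P.rels → Sx 2 Z), q z = Q.y₀ →
  (∀ i t, q (ℓ i t) = Q.a i t) → (∀ j x, q (δ j x) = Q.D j x) → Dsc P ℓ δ →
  QI (fd P) (gbd Γ (E := Z)) (fk W P ℓ δ)

/-- G4: naturality and conclusion (from G0) -/
def SpecHI : Prop := ∀ (W : WordK) (Γ Z E : Type) [Group Γ] (P : FinPresentation Γ)
  [TopologicalSpace Z] [MulAction Γ Z] [ContinuousConstSMul Γ Z] [TopologicalSpace E]
  [MulAction Γ E] [ContinuousConstSMul Γ E] (g : C(Z, E)), (∀ (γ : Γ) z, g (γ • z) = γ • g z) →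
  ∀ (z : Z) (ℓ : ∀ i, Path z (P.x i • z)) (δ : Fin P.rels → Sx 2 Z)
  (ℓ' : ∀ i, Path (g z) (P.x i • g z)) (δ' : Fin P.rels → Sx 2 E),
  (∀ i t, g (ℓ i t) = ℓ' i t) → (∀ j x, g (δ j x) = δ' j x) → Dsc P ℓ δ → Dsc P ℓ' δ' →
  QI (fd P) (gbd Γ (E := Z)) (fk W P ℓ δ) → QI (fd P) (gbd Γ (E := E)) (fk W P ℓ' δ') → HIso g

/-- T: the group can be replaced by an isomorphic group -/
def SpecIso : Prop := ∀ (G X : Type) [Group G] [TopologicalSpace X] (x : X),
  Nonempty (FundamentalGroup X x ≃* G) → D2Condition X →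
  ∃ (E : Type) (_ : TopologicalSpace E) (_ : MulAction G E)
    (_ : ContinuousConstSMul G E) (p : E → X), IsQuotientCoveringMap p G ∧
    SimplyConnectedSpace E ∧ (∀ i, 2 ≤ i → HomZero i E) ∧
    ∀ (M : Type) [AddCommGroup M] [Module (ZG G) M], Module.Finite (ZG G) M → CohZero G E M

/-- OUTPUT -/
def SpecTop : Prop := ∀ (G : Type) [Group G], AlgebraicD2Property G → D2Property G

end Vale.Agent.P246.Top
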