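import Vale.Agent.P246.Top.Basic

/-!
# Topological D(2) property: statements of the blocks A (subdivision), D (Hurewicz), E (Whitehead)
-/

set_option linter.all false

namespace Vale.Agent.P246.Top

open Topology Set

/-- the unit interval -/
abbrev I := unitInterval

/-- boundary of the standard simplex -/
def bdry (n : ℕ) : Set (Dl n) := {x | ∃ i, x i = 0}

/-- homotopies of singular simplices -/
abbrev Hs (n : ℕ) (X : Type) [TopologicalSpace X] : Type := C(I × Dl n, X)

section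

variable {X : Type} [TopologicalSpace X] {n : ℕ}

/-- the simplex at time `t` -/
def slice (K : Hs n X) (t : I) : Sx n X := ⟨fun x => K (t, x), by fun_prop⟩

/-- restriction of a homotopy to the face `i` -/
noncomputable def side (K : Hs (n + 1) X) (i : Fin (n + 2)) : Hs n X :=
  ⟨fun p => K (p.1, face n i p.2), by fun_prop⟩

/-- the constant simplex -/
def cst (n : ℕ) (x : X) : Sx n X := ContinuousMap.const _ x

/-- compatible faces: a map from the boundary of `Δ^{n+1}` -/
def Compat (s : Fin (n + 2) → Sx n X) : Prop :=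
  ∀ i j x y, face n i x = face n j y → s i x = s j y

/-- `B` is obtained from the closed set `A` by attaching the `n`-cell `χ` -/
structure Att (n : ℕ) (A B : Set X) (χ : Sx n X) : Prop where
  closed : IsClosed A
  eq : B = A ∪ range χ
  bdry : ∀ x ∈ bdry n, χ x ∈ A
  inj : ∀ x y, x ∉ Top.bdry n → y ∉ Top.bdry n → χ x = χ y → x = y
  disj : ∀ x, x ∉ Top.bdry n → χ x ∉ A

end

/-! ### A : prisms, subdivision, excision, the homology of `(Δ, ∂Δ)` -/

/-- A1: the prism operator -/
def SpecPrism : Prop := ∃ pr : ∀ (n : ℕ) (Y : Type) [TopologicalSpace Y], Hs n Y → Ch (n + 1) Y,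
  (∀ (n : ℕ) (Y Z : Type) [TopologicalSpace Y] [TopologicalSpace Z] (f : C(Y, Z)) (K : Hs n Y),
    pr n Z (f.comp K) = push (n + 1) f (pr n Y K)) ∧
  (∀ (Y : Type) [TopologicalSpace Y] (K : Hs 0 Y),
    bd 0 (pr 0 Y K) = Finsupp.single (slice K 1) 1 - Finsupp.single (slice K 0) 1) ∧
  (∀ (n : ℕ) (Y : Type) [TopologicalSpace Y] (K : Hs (n + 1) Y),
    bd (n + 1) (pr (n + 1) Y K) = Finsupp.single (slice K 1) 1 - Finsupp.single (slice K 0) 1 -
      ∑ i : Fin (n + 2), (-1 : ℤ) ^ (i : ℕ) • pr n Y (side K i))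

/-- A2: subdivision; the operators are natural -/
def SpecSub : Prop := ∃ (sd : ∀ (n : ℕ) (X : Type) [TopologicalSpace X], Ch n X →ₗ[ℤ] Ch n X)
    (T : ∀ (n : ℕ) (X : Type) [TopologicalSpace X], Ch n X →ₗ[ℤ] Ch (n + 1) X),
  (∀ (n : ℕ) (X Y : Type) [TopologicalSpace X] [TopologicalSpace Y] (f : C(X, Y)) (c : Ch n X),
    sd n Y (push n f c) = push n f (sd n X c)) ∧
  (∀ (n : ℕ) (X Y : Type) [TopologicalSpace X] [TopologicalSpace Y] (f : C(X, Y)) (c : Ch n X),
    T n Y (push n f c) = push (n + 1) f (T n X c)) ∧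
  (∀ (X : Type) [TopologicalSpace X] (c : Ch 0 X), bd 0 (T 0 X c) = c - sd 0 X c) ∧
  (∀ (n : ℕ) (X : Type) [TopologicalSpace X] (c : Ch (n + 1) X),
    bd (n + 1) (T (n + 1) X c) + T n X (bd n c) = c - sd (n + 1) X c) ∧
  (∀ (n : ℕ) (X : Type) [TopologicalSpace X] (U V : Set X), interior U ∪ interior V = univ →
    ∀ c : Ch n X, ∃ m : ℕ, (sd n X)^[m] c ∈ SC U n ⊔ SC V n)

/-- A3: excision (from A2) -/
def SpecExc : Prop := ∀ (X : Type) [TopologicalSpace X] (A V : Set X),
  interior A ∪ interior V = univ → ∀ n : ℕ,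
  (∀ c : Ch n X, dd n c ∈ SC A (n - 1) → ∃ v ∈ SC V n, ∃ b : Ch (n + 1) X,
    c - v - bd n b ∈ SC A n) ∧
  (∀ v ∈ SC V n, dd n v ∈ SC A (n - 1) → ∀ b : Ch (n + 1) X, v - bd n b ∈ SC A n →
    ∃ b' ∈ SC V (n + 1), v - bd n b' ∈ SC (A ∩ V) n)

/-- A4: the homology of `(Δ^n, ∂Δ^n)` (from A1, A3) -/
def SpecLH : Prop := ∀ n : ℕ,
  (∀ k, k ≠ n → ∀ c : Ch k (Dl n), dd k c ∈ SC (bdry n) (k - 1) →
    ∃ b, c - bd k b ∈ SC (bdry n) k) ∧
  (∀ c : Ch n (Dl n), dd n c ∈ SC (bdry n) (n - 1) → ∃ (m : ℤ) (b : Ch (n + 1) (Dl n)),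
    c - Finsupp.single (ContinuousMap.id _) m - bd n b ∈ SC (bdry n) n) ∧
  (∀ (m : ℤ) (b : Ch (n + 1) (Dl n)),
    Finsupp.single (ContinuousMap.id _) m - bd n b ∈ SC (bdry n) n → m = 0)

/-! ### D : the Hurewicz theorem -/

/-- D0: homotopy extension, with control of the range (see `P223/MT/HEP.lean`) -/
def SpecExt : Prop := ∀ (M : Type) [TopologicalSpace M] (k : ℕ) (σ : Sx (k + 1) M)
  (G : Fin (k + 2) → Hs k M), (∀ i x, G i (0, x) = σ (face k i x)) →
  (∀ i j t x y, face k i x = face k j y → G i (t, x) = G j (t, y)) →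
  ∃ K : Hs (k + 1) M, slice K 0 = σ ∧ (∀ i, side K i = G i) ∧
    ∀ p, (∃ x, K p = σ x) ∨ ∃ i q, K p = G i q

/-- D0': homotopies relative to the boundary are determined by the beginning and the faces: two
homotopies with the same beginning and the same faces have ends which are homotopic relative to
the boundary (see `P223/MT/W.lean`) -/
def SpecEnd : Prop := ∀ (M : Type) [TopologicalSpace M] (k : ℕ) (K K' : Hs k M),
  slice K 0 = slice K' 0 → (∀ t, ∀ x ∈ bdry k, K (t, x) = K' (t, x)) →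
  ContinuousMap.HomotopicRel (slice K 1) (slice K' 1) (bdry k)

/-- a compatible choice of homotopies of all singular simplices of `M`, preserving `A` -/
structure Sys (M : Type) [TopologicalSpace M] (A : Set M) where
  H : (k : ℕ) → Sx k M → Hs k M
  zero : ∀ k (σ : Sx k M), slice (H k σ) 0 = σ
  fc : ∀ k (σ : Sx (k + 1) M) (i : Fin (k + 2)), side (H (k + 1) σ) i = H k (σ.comp (face k i))
  mem : ∀ k (σ : Sx k M), (∀ x, σ x ∈ A) → ∀ p, H k σ p ∈ A

/-- D1: systems of homotopies with prescribed homotopies (relative to the boundary) of the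
`m`-simplices (see `P223/MT/Sys.lean`) -/
def SpecSys : Prop := ∀ (M : Type) [TopologicalSpace M] (A : Set M) (m : ℕ)
  (w : Sx m M → Hs m M), (∀ ρ, slice (w ρ) 0 = ρ) → (∀ ρ t, ∀ x ∈ bdry m, w ρ (t, x) = ρ x) →
  (∀ ρ, (∀ x, ρ x ∈ A) → ∀ p, w ρ p ∈ A) →
  ∃ S : Sys M A, (∀ k < m, ∀ (σ : Sx k M) t x, S.H k σ (t, x) = σ x) ∧ ∀ ρ, S.H m ρ = w ρ

section

variable {M : Type} [TopologicalSpace M]

/-- `σ` can be deformed into `A` relative to the boundary -/
def Dfm (A : Set M) (k : ℕ) (σ : Sx k M) : Prop :=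
  ∃ K : Hs k M, slice K 0 = σ ∧ (∀ x, K (1, x) ∈ A) ∧ ∀ t, ∀ x ∈ bdry k, K (t, x) = σ x

/-- `P(k)`: every `k`-simplex with boundary in `A` can be deformed into `A` relative to the
boundary, i.e. `π_k(M, A) = 0` -/
def PP (A : Set M) (k : ℕ) : Prop := ∀ σ : Sx k M, (∀ x ∈ bdry k, σ x ∈ A) → Dfm A k σ

/-- every map from the boundary of `Δ^{k+1}` extends to `Δ^{k+1}`, i.e. `π_k(M) = 0` -/
def Filler (M : Type) [TopologicalSpace M] (k : ℕ) : Prop :=
  ∀ s : Fin (k + 2) → Sx k M, Compat s → ∃ τ : Sx (k + 1) M, ∀ i, τ.comp (face k i) = s i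

/-- every null homologous map from the boundary of `Δ^{m+1}` extends to `Δ^{m+1}` -/
def HInj (M : Type) [TopologicalSpace M] (m : ℕ) : Prop :=
  ∀ s : Fin (m + 2) → Sx m M, Compat s →
    (∃ b : Ch (m + 1) M, ∑ i : Fin (m + 2), (-1 : ℤ) ^ (i : ℕ) • Finsupp.single (s i) (1 : ℤ) =
      bd m b) → ∃ τ : Sx (m + 1) M, ∀ i, τ.comp (face m i) = s i

/-- the fundamental groups are abelian -/
def AbPi (M : Type) [TopologicalSpace M] : Prop :=
  ∀ (x : M) (p q : Path x x), (p.trans q).Homotopic (q.trans p)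

/-- the homotopy fibre: paths from `x₀` to a point of `A` -/
abbrev Fib (x₀ : M) (A : Set M) : Type := {γ : C(I, M) // γ 0 = x₀ ∧ γ 1 ∈ A}

/-- `H_n(M, A) = 0` for `n ≥ 1` -/
def RelZero (A : Set M) : Prop := ∀ (n : ℕ) (c : Ch (n + 1) M), bd n c ∈ SC A n →
  ∃ b : Ch (n + 2) M, c - bd (n + 1) b ∈ SC A (n + 1)

end

/-- D3: the inductive step, relative case. Every simplex can be moved by systems of homotopies
such that its 1-skeleton goes to `x₀` and its (n-1)-skeleton into `A`; for such simplices `σ` let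
`κ σ = ∑ (-1)^i [z ↦ (t ↦ σ((1-t) v₀ + t face_i z))]`, a cycle in the homotopy fibre. -/
def SpecStep : Prop := ∀ (M : Type) [TopologicalSpace M] (A : Set M) (x₀ : M) (n : ℕ),
  SimplyConnectedSpace M → SimplyConnectedSpace A → x₀ ∈ A → (∀ k < n + 2, PP A k) →
  HInj (Fib x₀ A) (n + 1) → ∀ σ : Sx (n + 2) M, (∀ x ∈ bdry (n + 2), σ x ∈ A) →
  (∃ b : Ch (n + 3) M, Finsupp.single σ 1 - bd (n + 2) b ∈ SC A (n + 2)) → Dfm A (n + 2) σ

/-- D4: connectivity of the homotopy fibre -/
def SpecFibCon : Prop := ∀ (M : Type) [TopologicalSpace M] (A : Set M) (x₀ : M) (k : ℕ),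
  x₀ ∈ A → PP A (k + 1) → Filler (Fib x₀ A) k

/-- D5: the homotopy fibre has abelian fundamental groups if `A` is simply connected -/
def SpecFibAb : Prop := ∀ (M : Type) [TopologicalSpace M] (A : Set M) (x₀ : M),
  SimplyConnectedSpace A → x₀ ∈ A → PathConnectedSpace (Fib x₀ A) → AbPi (Fib x₀ A)

/-- D6: the absolute case in degrees `≥ 2` from the relative case for `(F, pt)` (contract the horn
of all faces which contain the vertex `0`) -/
def SpecAbs : Prop := ∀ (F : Type) [TopologicalSpace F] (m : ℕ), Nonempty F →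
  (∀ k < m + 2, Filler F k) →
  (∀ (x : F) (σ : Sx (m + 2) F), (∀ y ∈ bdry (m + 2), σ y = x) →
    (∃ b : Ch (m + 3) F, Finsupp.single σ 1 - bd (m + 2) b ∈ SC {x} (m + 2)) →
    Dfm {x} (m + 2) σ) → HInj F (m + 2)

/-- D7: the start, `H_1 = π_1` for abelian fundamental groups -/
def SpecBase : Prop := ∀ (F : Type) [TopologicalSpace F], PathConnectedSpace F → AbPi F → HInj F 1

/-- D8: low degrees and comparison of fillers with deformations to a point -/
def SpecLow : Prop :=
  (∀ (M : Type) [TopologicalSpace M] (A : Set M), PathConnectedSpace M → A.Nonempty → PP A 0) ∧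
  (∀ (M : Type) [TopologicalSpace M] (A : Set M), SimplyConnectedSpace M →
    PathConnectedSpace A → PP A 1) ∧
  (∀ (M : Type) [TopologicalSpace M] (x : M) (k : ℕ), Filler M k → PP {x} k) ∧
  (∀ (M : Type) [TopologicalSpace M], Nonempty M → Filler M 0 → PathConnectedSpace M) ∧
  (∀ (M : Type) [TopologicalSpace M], PathConnectedSpace M → Filler M 1 → SimplyConnectedSpace M)

/-- D: the relative Hurewicz theorem in the form of Whitehead's theorem -/
def SpecRH : Prop := ∀ (M : Type) [TopologicalSpace M] (A : Set M), SimplyConnectedSpace M →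
  SimplyConnectedSpace A → RelZero A → ∀ k, PP A k

/-- DD: a 2-chain whose boundary is the boundary of a disc is homologous to a disc with the same
boundary, if `E` is simply connected -/
def SpecDisc : Prop := ∀ (E : Type) [TopologicalSpace E], SimplyConnectedSpace E →
  ∀ (δ₀ : Sx 2 E) (c : Ch 2 E), bd 1 c = bd 1 (Finsupp.single δ₀ 1) →
  ∃ δ : Sx 2 E, (∀ i, δ.comp (face 1 i) = δ₀.comp (face 1 i)) ∧
    ∃ b : Ch 3 E, Finsupp.single δ 1 - c = bd 2 b

/-! ### E : Whitehead's theorem -/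

/-- isomorphism on homology -/
def HIso {Z E : Type} [TopologicalSpace Z] [TopologicalSpace E] (g : C(Z, E)) : Prop :=
  ∀ n : ℕ, (∀ z : Ch n E, dd n z = 0 → ∃ z' : Ch n Z, dd n z' = 0 ∧
      ∃ b : Ch (n + 1) E, push n g z' - z = bd n b) ∧
    (∀ z' : Ch n Z, dd n z' = 0 → ∀ b : Ch (n + 1) E, push n g z' = bd n b →
      ∃ b' : Ch (n + 1) Z, z' = bd n b')

/-- the pull back of `p` along `f` -/
abbrev Pb {X Y E : Type} (f : Y → X) (p : E → X) : Type := {z : Y × E // f z.1 = p z.2}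

/-- the projection to `E` -/
def Pb.snd {X Y E : Type} [TopologicalSpace Y] [TopologicalSpace E] (f : Y → X) (p : E → X) :
    C(Pb f p, E) := ⟨fun z => z.1.2, by fun_prop⟩

/-- E1: compression over the cells of a finite CW complex -/
def SpecCompress : Prop := ∀ (X M : Type) [TopologicalSpace X] [T2Space X]
  [CWComplex (univ : Set X)] [RelCWComplex.Finite (univ : Set X)] [TopologicalSpace M]
  (A : Set M), (∀ k, PP A k) → ∀ u : C(X, M), ∃ v : C(X, M), (∀ x, v x ∈ A) ∧ u.Homotopic v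

/-- E2: deformations can be pushed down a covering map -/
def SpecDown : Prop := ∀ (M M' : Type) [TopologicalSpace M] [TopologicalSpace M'] (q : M' → M),
  IsCoveringMap q → Function.Surjective q → ∀ (A : Set M) (k : ℕ), PP (q ⁻¹' A) k → PP A k

/-- E3: a right inverse (from D, E1, E2, with `M = X × ℝ^C(Y,ℝ)`) -/
def SpecRight : Prop := ∀ (X Y E : Type) [TopologicalSpace X] [TopologicalSpace Y]
  [TopologicalSpace E] [T2Space X] [CWComplex (univ : Set X)]
  [RelCWComplex.Finite (univ : Set X)] [T2Space Y] [CompactSpace Y] (f : C(Y, X)) (p : E → X),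
  IsCoveringMap p → Function.Surjective p → SimplyConnectedSpace E →
  SimplyConnectedSpace (Pb f p) → HIso (Pb.snd f p) →
  ∃ g : C(X, Y), (f.comp g).Homotopic (ContinuousMap.id X)

/-- E4: the covering pulled back along a map with `f ∘ g ≃ id` -/
def SpecPull : Prop := ∀ (X Y E : Type) [TopologicalSpace X] [TopologicalSpace Y]
  [TopologicalSpace E] (f : C(Y, X)) (g : C(X, Y)) (p : E → X),
  IsCoveringMap p → Function.Surjective p → SimplyConnectedSpace E →
  SimplyConnectedSpace (Pb f p) → HIso (Pb.snd f p) →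
  (f.comp g).Homotopic (ContinuousMap.id X) →
  IsCoveringMap (fun z : Pb f p => z.1.1) ∧ Function.Surjective (fun z : Pb f p => z.1.1) ∧
  SimplyConnectedSpace (Pb g fun z : Pb f p => z.1.1) ∧ HIso (Pb.snd g fun z : Pb f p => z.1.1)

/-- E: Whitehead's theorem -/
def SpecWh : Prop := ∀ (X Y E : Type) [TopologicalSpace X] [TopologicalSpace Y]
  [TopologicalSpace E] [T2Space X] [CWComplex (univ : Set X)]
  [RelCWComplex.Finite (univ : Set X)] [T2Space Y] [CWComplex (univ : Set Y)]
  [RelCWComplex.Finite (univ : Set Y)] (f : C(Y, X)) (p : E → X),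
  IsCoveringMap p → Function.Surjective p → SimplyConnectedSpace E →
  SimplyConnectedSpace (Pb f p) → HIso (Pb.snd f p) →
  Nonempty (ContinuousMap.HomotopyEquiv X Y)

/-- E0: finite CW complexes are compact -/
def SpecCpt : Prop := ∀ (X : Type) [TopologicalSpace X] [CWComplex (univ : Set X)]
  [RelCWComplex.Finite (univ : Set X)], CompactSpace X

/-! ### assembly of D and E -/

theorem abs_of (hStep : SpecStep) (hCon : SpecFibCon) (hAb : SpecFibAb) (hAbs : SpecAbs)
    (hBase : SpecBase) (hLow : SpecLow) : ∀ (m : ℕ) (F : Type) [TopologicalSpace F], Nonempty F →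
    (∀ k < m + 1, Filler F k) → (m = 0 → AbPi F) → HInj F (m + 1) := by
  intro m
  induction m with
  | zero =>
    intro F _ hne hF hab
    exact hBase F (hLow.2.2.2.1 F hne (hF 0 (by omega))) (hab rfl)
  | succ m ih =>
    intro F _ hne hF _
    apply hAbs F m hne hF
    intro x σ hσ hb
    have hpc := hLow.2.2.2.1 F hne (hF 0 (by omega))
    have hsc := hLow.2.2.2.2 F hpc (hF 1 (by omega))
    have hA : SimplyConnectedSpace ({x} : Set F) := inferInstance
    have hPP : ∀ k < m + 2, PP ({x} : Set F) k := fun k hk => hLow.2.2.1 F x k (hF k hk)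
    apply hStep F {x} x m hsc hA rfl hPP _ σ (fun y hy => hσ y hy) hb
    have hne' : Nonempty (Fib x ({x} : Set F)) := ⟨⟨ContinuousMap.const _ x, rfl, rfl⟩⟩
    apply ih _ hne' (fun k hk => hCon F {x} x k rfl (hPP (k + 1) (by omega)))
    intro _
    exact hAb F {x} x hA rfl (hLow.2.2.2.1 _ hne' (hCon F {x} x 0 rfl (hPP 1 (by omega))))

theorem rh_of (hStep : SpecStep) (hCon : SpecFibCon) (hAb : SpecFibAb) (hAbs : SpecAbs)
    (hBase : SpecBase) (hLow : SpecLow) : SpecRH := by
  intro M _ A hM hA hR k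
  have hApc : PathConnectedSpace A := inferInstance
  obtain ⟨⟨x₀, hx₀⟩⟩ : Nonempty A := inferInstance
  induction k using Nat.strong_induction_on with
  | _ k ih =>
    match k, ih with
    | 0, _ => exact hLow.1 M A inferInstance ⟨x₀, hx₀⟩
    | 1, _ => exact hLow.2.1 M A hM hApc
    | n + 2, ih =>
      intro σ hσ
      apply hStep M A x₀ n hM hA hx₀ ih _ σ hσ
      · refine hR (n + 1) (Finsupp.single σ 1) ?_
        rw [bd_single]
        apply sum_mem
        intro i _
        apply Submodule.smul_mem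
        apply single_mem_SC
        intro x
        exact hσ _ ⟨i, by
          change stdSimplex.map (S := ℝ) i.succAbove x i = 0
          rw [stdSimplex.map_coe, FunOnFinite.linearMap_apply_apply]
          apply Finset.sum_eq_zero
          intro y hy
          exact absurd (Finset.mem_filter.1 hy).2 (Fin.succAbove_ne i y)⟩
      · have hne : Nonempty (Fib x₀ A) := ⟨⟨ContinuousMap.const _ x₀, rfl, hx₀⟩⟩
        apply abs_of hStep hCon hAb hAbs hBase hLow n _ hne
          (fun k hk => hCon M A x₀ k hx₀ (ih (k + 1) (by omega)))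
        rintro rfl
        exact hAb M A x₀ hA hx₀ (hLow.2.2.2.1 _ hne (hCon M A x₀ 0 hx₀ (ih 1 (by omega))))

theorem wh_of (hR : SpecRight) (hP : SpecPull) (hC : SpecCpt) : SpecWh := by
  intro X Y E _ _ _ _ _ _ _ _ _ f p hp hs hE hZ hI
  have hX : CompactSpace X := hC X
  have hY : CompactSpace Y := hC Y
  obtain ⟨g, hg⟩ := hR X Y E f p hp hs hE hZ hI
  obtain ⟨h1, h2, h3, h4⟩ := hP X Y E f g p hp hs hE hZ hI hg
  obtain ⟨h, hh⟩ := hR Y X (Pb f p) g (fun z : Pb f p => z.1.1) h1 h2 hZ h3 h4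
  -- `f ≃ f ∘ (g ∘ h) ≃ h`
  have e1 : f.Homotopic h := by
    have a1 : (f.comp (g.comp h)).Homotopic (f.comp (ContinuousMap.id Y)) :=
      ContinuousMap.Homotopic.comp (ContinuousMap.Homotopic.refl f) hh
    have a2 : ((f.comp g).comp h).Homotopic ((ContinuousMap.id X).comp h) :=
      ContinuousMap.Homotopic.comp hg (ContinuousMap.Homotopic.refl h)
    exact a1.symm.trans a2
  have e2 : (g.comp f).Homotopic (ContinuousMap.id Y) :=
    (ContinuousMap.Homotopic.comp (ContinuousMap.Homotopic.refl g) e1).trans hh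
  exact ⟨⟨g, f, hg, e2⟩⟩

end Vale.Agent.P246.Top
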